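import Vale.Agent.Lib.P069.Coord

open scoped ENNReal

namespace Vale.Agent.Lib.P069

/-- A sequence with an upper `ℓ²` estimate is weakly null. -/
theorem tendsto_zero_of_upper_l2' {Z : Type*} [NormedAddCommGroup Z] [NormedSpace ℝ Z]
    (e : ℕ → Z)
    (h : ∀ (A : Finset ℕ) (c : ℕ → ℝ), ‖∑ k ∈ A, c k • e k‖ ≤ Real.sqrt (∑ k ∈ A, (c k) ^ 2))
    (φ : StrongDual ℝ Z) : Filter.Tendsto (fun k => φ (e k)) Filter.atTop (nhds 0) := by
  have hbound : ∀ A : Finset ℕ, ∑ k ∈ A, (φ (e k)) ^ 2 ≤ ‖φ‖ ^ 2 := by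
    intro A
    set R : ℝ := Real.sqrt (∑ k ∈ A, (φ (e k)) ^ 2) with hR
    have hsum0 : 0 ≤ ∑ k ∈ A, (φ (e k)) ^ 2 := Finset.sum_nonneg (fun k _ => sq_nonneg _)
    have hR0 : 0 ≤ R := Real.sqrt_nonneg _
    have hR2 : R ^ 2 = ∑ k ∈ A, (φ (e k)) ^ 2 := Real.sq_sqrt hsum0
    have h1 : φ (∑ k ∈ A, φ (e k) • e k) = ∑ k ∈ A, (φ (e k)) ^ 2 := by
      rw [map_sum]
      apply Finset.sum_congr rfl
      intro k _
      rw [map_smul, smul_eq_mul, sq]
    have h2 : φ (∑ k ∈ A, φ (e k) • e k) ≤ ‖φ‖ * ‖∑ k ∈ A, φ (e k) • e k‖ :=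
      (le_abs_self _).trans (φ.le_opNorm _)
    have h3 : ‖∑ k ∈ A, φ (e k) • e k‖ ≤ R := h A (fun k => φ (e k))
    have h4 : R ^ 2 ≤ ‖φ‖ * R := by
      rw [hR2, ← h1]
      exact h2.trans (mul_le_mul_of_nonneg_left h3 (norm_nonneg φ))
    have h5 : R ≤ ‖φ‖ := by
      rcases eq_or_lt_of_le hR0 with h0 | h0
      · rw [← h0]
        exact norm_nonneg φ
      · by_contra hcon
        push Not at hcon
        nlinarith
    rw [← hR2]
    exact pow_le_pow_left₀ hR0 h5 2
  have hsummable : Summable (fun k : ℕ => (φ (e k)) ^ 2) :=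
    summable_of_sum_le (fun _ => sq_nonneg _) hbound
  have hsq : Filter.Tendsto (fun k => (φ (e k)) ^ 2) Filter.atTop (nhds 0) :=
    hsummable.tendsto_atTop_zero
  have habs : Filter.Tendsto (fun k => |φ (e k)|) Filter.atTop (nhds 0) := by
    have h6 : Filter.Tendsto (fun k => Real.sqrt ((φ (e k)) ^ 2)) Filter.atTop (nhds 0) := by
      have := (Real.continuous_sqrt.tendsto 0).comp hsq
      rw [Real.sqrt_zero] at this
      exact this
    refine h6.congr ?_
    intro k
    exact Real.sqrt_sq_eq_abs _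
  exact (tendsto_zero_iff_abs_tendsto_zero _).mpr habs

variable {n : ℕ}

/-- the coordinate functional at the node `s` -/
noncomputable def coordFun (n : ℕ) (s : List ℕ) : X n :=
  LinearMap.mkContinuous (evl n s) 1 (by
    intro x
    rw [evl_apply, one_mul, Real.norm_eq_abs]
    exact Y.abs_apply_le x s)

lemma coordFun_apply (s : List ℕ) (x : Y n) : coordFun n s x = x s := rfl

lemma norm_coordFun_le (s : List ℕ) : ‖coordFun n s‖ ≤ 1 :=
  LinearMap.mkContinuous_norm_le _ zero_le_one _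

lemma one_le_norm_coordFun (s : List ℕ) : 1 ≤ ‖coordFun n s‖ := by
  have h1 : coordFun n s (bv n s) = 1 := by
    rw [coordFun_apply, bv_apply, if_pos rfl]
  have h2 := (coordFun n s).le_opNorm (bv n s)
  rw [h1, norm_one] at h2
  have h3 := norm_bv_le n s
  nlinarith [norm_nonneg (coordFun n s), norm_nonneg (bv n s)]

/-- the sum over the segment from the root to `c`, as a linear map -/
noncomputable def segLin (n : ℕ) (c : List ℕ) : Y n →ₗ[ℝ] ℝ where
  toFun x := segSum (fun s => x s) [] c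
  map_add' x y := by
    have : (fun s => (x + y) s) = fun s => x s + y s := by
      funext s
      exact Y.add_apply x y s
    rw [this]
    exact segSum_add _ _ _ _
  map_smul' r x := by
    have : (fun s => (r • x) s) = fun s => r * x s := by
      funext s
      exact Y.smul_apply r x s
    rw [this]
    exact segSum_smul _ _ _ _

lemma segLin_apply (c : List ℕ) (x : Y n) : segLin n c x = segSum (fun s => x s) [] c := rfl

open Classical in
/-- the segment functional of the segment from the root to `c` -/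
noncomputable def segFun (n : ℕ) (c : List ℕ) : X n :=
  if h : c.length ≤ n then
    LinearMap.mkContinuous (segLin n c) 1 (by
      intro x
      rw [segLin_apply, one_mul, Real.norm_eq_abs]
      exact Y.abs_segSum_le x [] c h)
  else 0

lemma segFun_apply {c : List ℕ} (hc : c.length ≤ n) (x : Y n) :
    segFun n c x = segSum (fun s => x s) [] c := by
  unfold segFun
  rw [dif_pos hc]
  rfl

lemma norm_segFun_le (c : List ℕ) : ‖segFun n c‖ ≤ 1 := by
  unfold segFun
  split_ifs with h
  · exact LinearMap.mkContinuous_norm_le _ zero_le_one _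
  · rw [norm_zero]
    exact zero_le_one

lemma segSum_ind_root (c : List ℕ) :
    segSum (fun t => if ([] : List ℕ) = t then (1 : ℝ) else 0) [] c = 1 := by
  induction c with
  | nil => simp
  | cons k c ih =>
    rw [segSum_cons, ih, if_neg (by simp)]
    ring

lemma one_le_norm_segFun {c : List ℕ} (hc : c.length ≤ n) : 1 ≤ ‖segFun n c‖ := by
  have h1 : segFun n c (bv n []) = 1 := by
    rw [segFun_apply hc]
    have : (fun s => bv n [] s) = fun t => if ([] : List ℕ) = t then (1 : ℝ) else 0 := by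
      funext t
      exact bv_apply [] t
    rw [this]
    exact segSum_ind_root c
  have h2 := (segFun n c).le_opNorm (bv n [])
  rw [h1, norm_one] at h2
  have h3 := norm_bv_le n []
  nlinarith [norm_nonneg (segFun n c), norm_nonneg (bv n ([] : List ℕ))]

lemma segFun_cons (k : ℕ) {c : List ℕ} (hc : c.length < n) :
    segFun n (k :: c) = segFun n c + coordFun n (k :: c) := by
  have hc1 : (k :: c).length ≤ n := by
    rw [List.length_cons]
    exact hc
  ext x
  rw [add_apply, segFun_apply hc1, segFun_apply hc.le, coordFun_apply,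
    segSum_cons, List.append_nil]
  ring

lemma norm_sum_coordFun_le (c : List ℕ) (A : Finset ℕ) (a : ℕ → ℝ) :
    ‖∑ k ∈ A, a k • coordFun n (k :: c)‖ ≤ Real.sqrt (∑ k ∈ A, (a k) ^ 2) := by
  apply ContinuousLinearMap.opNorm_le_bound _ (Real.sqrt_nonneg _)
  intro x
  have hval : (∑ k ∈ A, a k • coordFun n (k :: c)) x = ∑ k ∈ A, a k * x (k :: c) := by
    rw [sum_apply]
    apply Finset.sum_congr rfl
    intro k _
    rw [smul_apply, coordFun_apply, smul_eq_mul]
  rw [hval, Real.norm_eq_abs]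
  apply abs_le_of_sq_le_sq _ (mul_nonneg (Real.sqrt_nonneg _) (norm_nonneg x))
  have hsum0 : 0 ≤ ∑ k ∈ A, (a k) ^ 2 := Finset.sum_nonneg (fun k _ => sq_nonneg _)
  rw [mul_pow, Real.sq_sqrt hsum0]
  have h2 := Finset.sum_mul_sq_le_sq_mul_sq A a (fun k => x (k :: c))
  have hinj : Set.InjOn (fun k : ℕ => k :: c) (A : Set ℕ) := by
    intro i _ j _ hij
    exact (List.cons.inj hij).1
  have h3 : ∑ k ∈ A, (x (k :: c)) ^ 2 ≤ ‖x‖ ^ 2 := by
    have h4 := Y.sum_sq_le x (A.image (fun k : ℕ => k :: c))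
    rw [Finset.sum_image hinj] at h4
    exact h4
  calc (∑ k ∈ A, a k * x (k :: c)) ^ 2
      ≤ (∑ k ∈ A, (a k) ^ 2) * ∑ k ∈ A, (x (k :: c)) ^ 2 := h2
    _ ≤ (∑ k ∈ A, (a k) ^ 2) * ‖x‖ ^ 2 := mul_le_mul_of_nonneg_left h3 hsum0

/-- the tree data in the `ℓ²`-sum: a tree of height `n` of norm-one vectors whose
successive differences are weakly null and of norm at least one. -/
theorem tree_data (n : ℕ) : ∃ (z u : List ℕ → lp (fun m : ℕ => X m) 2),
      (∀ c : List ℕ, c.length ≤ n → ‖z c‖ ≤ 1) ∧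
      (∀ c : List ℕ, c.length ≤ n → 1 ≤ ‖z c‖) ∧
      (∀ (k : ℕ) (c : List ℕ), 1 ≤ ‖u (k :: c)‖) ∧
      (∀ (k : ℕ) (c : List ℕ), c.length < n → z (k :: c) = z c + u (k :: c)) ∧
      (∀ (c : List ℕ) (φ : StrongDual ℝ (lp (fun m : ℕ => X m) 2)),
        Filter.Tendsto (fun k => φ (u (k :: c))) Filter.atTop (nhds 0)) := by
  have hp : (0 : ℝ≥0∞) < 2 := by norm_num
  refine ⟨fun c => lp.single 2 n (segFun n c), fun s => lp.single 2 n (coordFun n s),
    ?_, ?_, ?_, ?_, ?_⟩
  · intro c _
    rw [lp.norm_single hp]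
    exact norm_segFun_le c
  · intro c hc
    rw [lp.norm_single hp]
    exact one_le_norm_segFun hc
  · intro k c
    rw [lp.norm_single hp]
    exact one_le_norm_coordFun (k :: c)
  · intro k c hc
    show lp.single 2 n (segFun n (k :: c)) = _
    rw [segFun_cons k hc, lp.single_add]
  · intro c φ
    apply tendsto_zero_of_upper_l2' (fun k => lp.single 2 n (coordFun n (k :: c)))
    intro A a
    have h1 : ∑ k ∈ A, a k • lp.single 2 n (coordFun n (k :: c)) =
        lp.single 2 n (∑ k ∈ A, a k • coordFun n (k :: c)) := by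
      have := map_sum (lp.lsingle (𝕜 := ℝ) (E := fun m : ℕ => X m) 2 n)
        (fun k => a k • coordFun n (k :: c)) A
      rw [show lp.single 2 n (∑ k ∈ A, a k • coordFun n (k :: c)) =
        lp.lsingle (𝕜 := ℝ) (E := fun m : ℕ => X m) 2 n (∑ k ∈ A, a k • coordFun n (k :: c))
        from rfl, this]
      apply Finset.sum_congr rfl
      intro k _
      show _ = lp.single 2 n (a k • coordFun n (k :: c))
      rw [lp.single_smul]
    rw [h1, lp.norm_single hp]
    exact norm_sum_coordFun_le c A a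

end Vale.Agent.Lib.P069
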